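import Vale.Agent.P290.Stmt
import Vale.Agent.P278F.Osg

/-! P290: internal definitions. -/

open Set Filter
open scoped Manifold ContDiff Topology

noncomputable section

namespace Vale.Agent.P290

section SCV

variable {E : Type} [NormedAddCommGroup E] [NormedSpace ℂ E]

/-- Additive splitting holds for the pair `S₁, S₂`. -/
def Split (S₁ S₂ : Set E) : Prop :=
  ∀ c : E → ℂ, AnalyticOnNhd ℂ c (S₁ ∩ S₂) → ∃ c₁ c₂ : E → ℂ, AnalyticOnNhd ℂ c₁ S₁ ∧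
    AnalyticOnNhd ℂ c₂ S₂ ∧ ∀ᶠ z in 𝓝ˢ (S₁ ∩ S₂), c z = c₁ z - c₂ z

/-- Real coordinates of `J → ℂ`. -/
def co {J : Type} (z : J → ℂ) (k : J × Bool) : ℝ := if k.2 then (z k.1).re else (z k.1).im

/-- Closed boxes (products of rectangles, possibly degenerate). -/
def Box {J : Type} (a b : J × Bool → ℝ) : Set (J → ℂ) := {z | co z ∈ Icc a b}

/-- Functions extend from linear sections of boxes. -/
def Ext {J : Type} [Fintype J] (ι : E →L[ℂ] (J → ℂ)) : Prop :=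
  ∀ (a b : J × Bool → ℝ) (c : E → ℂ), AnalyticOnNhd ℂ c (ι ⁻¹' Box a b) →
    ∃ c' : (J → ℂ) → ℂ, AnalyticOnNhd ℂ c' (Box a b) ∧ ∀ᶠ z in 𝓝ˢ (ι ⁻¹' Box a b), c' (ι z) = c z

/-- `G` has analytic homogeneous coordinates near `z`. -/
def LocL (G : E → P1) (z : E) : Prop :=
  ∃ p : E → ℂ × ℂ, AnalyticAt ℂ p z ∧ ∀ᶠ w in 𝓝 z, Rep (p w) (G w)

/-- `p` gives analytic homogeneous coordinates of `G` near the set `K`. -/
def Lifts (G : E → P1) (p : E → ℂ × ℂ) (K : Set E) : Prop :=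
  AnalyticOnNhd ℂ p K ∧ ∀ᶠ w in 𝓝ˢ K, Rep (p w) (G w)

/-- The pairing of two vectors. -/
def pr (q p : ℂ × ℂ) : ℂ := q.1 * p.1 + q.2 * p.2

/-- The Wronskian of a curve of homogeneous coordinates at `0`. -/
def wr (p : ℂ → ℂ × ℂ) : ℂ := (p 0).1 * (deriv p 0).2 - (p 0).2 * (deriv p 0).1

end SCV

section Mfd

variable {X X' : Type} [TopologicalSpace X] [ChartedSpace C2 X] [TopologicalSpace X']
  [ChartedSpace C2 X'] {E : Type} [NormedAddCommGroup E] [NormedSpace ℂ E]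
  {A : Type} [NormedAddCommGroup A] [NormedSpace ℂ A]

/-- holomorphic at a point, maps into the surface -/
abbrev Hol (f : E → X) (z : E) : Prop := ContMDiffAt 𝓘(ℂ, E) 𝓘(ℂ, C2) ω f z

/-- holomorphic at a point, functions on the surface -/
abbrev HolF (y : X → E) (x : X) : Prop := ContMDiffAt 𝓘(ℂ, C2) 𝓘(ℂ, E) ω y x

/-- holomorphic at a point, maps from a product with the surface -/
abbrev HolX (C : X × A → X') (w : X × A) : Prop :=
  ContMDiffAt (𝓘(ℂ, C2).prod 𝓘(ℂ, A)) 𝓘(ℂ, C2) ω C w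

/-- the differential of a map into the surface -/
def dif (f : E → X) (z : E) : E →L[ℂ] C2 := mfderiv 𝓘(ℂ, E) 𝓘(ℂ, C2) f z

/-- the differential of a function on the surface -/
def dfn (y : X → E) (x : X) : C2 →L[ℂ] E := mfderiv 𝓘(ℂ, C2) 𝓘(ℂ, E) y x

/-- the velocity of a curve -/
def vel (c : ℂ → X) (s : ℂ) : C2 := dif c s 1

/-- the two-form without dependent types -/
def sg (σ : Form2 X) (x : X) : C2 →ₗ[ℂ] C2 →ₗ[ℂ] ℂ := σ x

/-- `C` agrees on `Y` locally with holomorphic maps. -/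
def RelHol (C : X × A → X') (Y : Set (X × A)) : Prop :=
  ∀ w ∈ Y, ∃ C' : X × A → X', HolX C' w ∧ ∀ᶠ v in 𝓝 w, v ∈ Y → C v = C' v

/-- An integral curve of the Hamiltonian field of `y` on the set `D`. -/
def HamOn (σ : Form2 X) (y : X → ℂ) (γ : ℂ → X) (D : Set ℂ) : Prop :=
  ∀ s ∈ D, Hol γ s ∧ ∀ v, sg σ (γ s) (vel γ s) v = dfn y (γ s) v

/-- A local flow on `N` for times `|t| < r`, with values in `O`. -/
structure LocFlow (σ : Form2 X) (y : X → ℂ) (O N : Set X) (r : ℝ) (Φ : X × ℂ → X) : Prop where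
  hol : ∀ x ∈ N, ∀ t ∈ Metric.ball (0 : ℂ) r, HolX Φ (x, t)
  mem : ∀ x ∈ N, ∀ t ∈ Metric.ball (0 : ℂ) r, Φ (x, t) ∈ O
  zero : ∀ x ∈ N, Φ (x, 0) = x
  ham : ∀ x ∈ N, HamOn σ y (fun t => Φ (x, t)) (Metric.ball 0 r)

/-- The global flow of the Hamiltonian field of `y` on `O`. -/
structure IsFlow (σ : Form2 X) (y : X → ℂ) (O : Set X) (Φ : X × ℂ → X) : Prop where
  hol : ∀ x ∈ O, ∀ t, HolX Φ (x, t)
  mem : ∀ x ∈ O, ∀ t, Φ (x, t) ∈ O
  inv : ∀ x ∈ O, ∀ t, y (Φ (x, t)) = y x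
  zero : ∀ x ∈ O, Φ (x, 0) = x
  add : ∀ x ∈ O, ∀ s t, Φ (Φ (x, s), t) = Φ (x, s + t)
  ham : ∀ x ∈ O, HamOn σ y (fun t => Φ (x, t)) univ

/-- The generating vector of a spray. -/
def tv (S : X × (ℂ × ℂ) × ℂ → X) (x : X) (p : ℂ × ℂ) : C2 := vel (fun t => S (x, p, t)) 0

/-- The fibrewise Hamiltonian flow of a map to the projective line. -/
structure Spray (σ : Form2 X) (π : X → P1) (S : X × (ℂ × ℂ) × ℂ → X) : Prop where
  hol : RelHol S {w | Rep w.2.1 (π w.1)}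
  fib : ∀ x p t, Rep p (π x) → π (S (x, p, t)) = π x
  zero : ∀ x p, Rep p (π x) → S (x, p, 0) = x
  add : ∀ x p s t, Rep p (π x) → S (S (x, p, s), p, t) = S (x, p, s + t)
  smul : ∀ x p (c : ℂ) t, Rep p (π x) → c ≠ 0 → S (x, c • p, t) = S (x, p, c ^ 2 * t)
  ham : ∀ (c : ℂ → X) (p : ℂ → ℂ × ℂ), Hol c 0 → AnalyticAt ℂ p 0 →
    (∀ᶠ s in 𝓝 0, Rep (p s) (π (c s))) → sg σ (c 0) (tv S (c 0) (p 0)) (vel c 0) = wr p
  uniq : ∀ γ : ℂ → X, HamCurve σ (fun y => aff (π y)) γ → Rep (1, aff (π (γ 0))) (π (γ 0)) →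
    ∀ s, γ s = S (γ 0, (1, aff (π (γ 0))), s)

/-- `f` factors near `P` through an entire map. -/
def Good (P : Set E) (f : E → X) : Prop :=
  ∃ (n : ℕ) (F : (Fin n → ℂ) → X) (Λ : E → Fin n → ℂ), (∀ w, Hol F w) ∧ AnalyticOnNhd ℂ Λ P ∧
    ∀ᶠ z in 𝓝ˢ P, f z = F (Λ z)

/-- `h` and `g` have the same good pull-backs through `W`. -/
def Eqv (P : Set E) (W : Set A) (h g : A → X) : Prop :=
  ∀ Λ : E → A, AnalyticOnNhd ℂ Λ P → MapsTo Λ P W → (Good P (h ∘ Λ) ↔ Good P (g ∘ Λ))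

/-- The differential of a family in the parameter. -/
def dT (F : E × A → X) (z : E) : A →L[ℂ] C2 := dif (fun t => F (z, t)) 0

/-- A family of reachable deformations of `f`, dominating on `D`. -/
structure Fam (σ : Form2 X) (P : Set E) (f : E → X) (F : E × A → X) (D : Set E) : Prop where
  hol : ∀ z ∈ P, Hol F (z, 0)
  zero : ∀ᶠ z in 𝓝ˢ P, F (z, 0) = f z
  eqv : ∃ W ∈ 𝓝ˢ (P ×ˢ ({0} : Set A)), Eqv P W (fun w => f w.1) F
  span : ∀ z ∈ P ∩ D, ∃ u v, sg σ (f z) (dT F z u) (dT F z v) ≠ 0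

/-- The pull-back of a fibration to the special linear group. -/
def SL (π : X → P1) : Set (X × (ℂ × ℂ) × (ℂ × ℂ)) :=
  {w | Rep w.2.1 (π w.1) ∧ pr w.2.2 w.2.1 = 1}

/-- The pull-backs of two fibrations to the special linear group are isomorphic. -/
structure Conv (π : X → P1) (π' : X' → P1) (C : X × (ℂ × ℂ) × (ℂ × ℂ) → X')
    (C' : X' × (ℂ × ℂ) × (ℂ × ℂ) → X) : Prop where
  hol : RelHol C (SL π)
  hol' : RelHol C' (SL π')
  ov : ∀ w ∈ SL π, π' (C w) = π w.1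
  ov' : ∀ w ∈ SL π', π (C' w) = π' w.1
  left : ∀ w ∈ SL π, C' (C w, w.2) = w.1
  right : ∀ w ∈ SL π', C (C' w, w.2) = w.1

end Mfd

end Vale.Agent.P290
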